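import Mathlib

/-! Generic double-counting lemma for S0066 (helper16): if every element of `D` is used by at most `m`
transversals and `|D| * m < #transversals`, some transversal uses no element of `D`. -/

set_option autoImplicit false

namespace Crest.Agent.S66

theorem exists_clean_transversal {Ω X : Type*} [Fintype Ω] [DecidableEq Ω] (U : Ω → X → Prop)
    [∀ ω x, Decidable (U ω x)] (D : Finset X) (m : ℕ)
    (hU : ∀ x ∈ D, (Finset.univ.filter (fun ω => U ω x)).card ≤ m)
    (h : D.card * m < Fintype.card Ω) : ∃ ω, ∀ x ∈ D, ¬ U ω x := by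
  classical
  by_contra hcon
  push Not at hcon
  have hcov : (Finset.univ : Finset Ω) ⊆ D.biUnion (fun x => Finset.univ.filter (fun ω => U ω x)) := by
    intro ω _
    obtain ⟨x, hx, hu⟩ := hcon ω
    exact Finset.mem_biUnion.2 ⟨x, hx, by simp [hu]⟩
  have h1 : Fintype.card Ω ≤ D.card * m := by
    calc Fintype.card Ω = (Finset.univ : Finset Ω).card := rfl
      _ ≤ (D.biUnion (fun x => Finset.univ.filter (fun ω => U ω x))).card := Finset.card_le_card hcov
      _ ≤ ∑ x ∈ D, (Finset.univ.filter (fun ω => U ω x)).card := Finset.card_biUnion_le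
      _ ≤ ∑ _x ∈ D, m := Finset.sum_le_sum hU
      _ = D.card * m := by simp
  omega

end Crest.Agent.S66
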