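import Mathlib

/-!
Pure `ℕ` lemmas on the nodes of the complete binary tree, a node of level `j` being given by
any leaf `z` below it (the node is `z / 2^j`), and on the Euler-tour boundary points
`tα j z = (z / 2^j) * 2^j`, `tω j z = (z / 2^j + 1) * 2^j`.
-/

namespace Crest.Agent.S66

/-- nodes `(j, z / 2^j)` and `(j', z' / 2^j')` are comparable -/
def cmpN (j z j' z' : ℕ) : Prop := z / 2 ^ (max j j') = z' / 2 ^ (max j j')

/-- node `(j,z)` is entirely to the left of `(j',z')` -/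
def leftN (j z j' z' : ℕ) : Prop := z / 2 ^ (max j j') < z' / 2 ^ (max j j')

instance (j z j' z' : ℕ) : Decidable (cmpN j z j' z') := by unfold cmpN; infer_instance
instance (j z j' z' : ℕ) : Decidable (leftN j z j' z') := by unfold leftN; infer_instance

def tα (j z : ℕ) : ℕ := (z / 2 ^ j) * 2 ^ j
def tω (j z : ℕ) : ℕ := (z / 2 ^ j + 1) * 2 ^ j

theorem div_pow_eq_of_le {a b x y : ℕ} (hab : a ≤ b) (h : x / 2 ^ a = y / 2 ^ a) :
    x / 2 ^ b = y / 2 ^ b := by
  obtain ⟨c, rfl⟩ := Nat.exists_eq_add_of_le hab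
  rw [pow_add, ← Nat.div_div_eq_div_mul, ← Nat.div_div_eq_div_mul, h]

theorem div_pow_le_of_le {a b x y : ℕ} (hab : a ≤ b) (h : x / 2 ^ a ≤ y / 2 ^ a) :
    x / 2 ^ b ≤ y / 2 ^ b := by
  obtain ⟨c, rfl⟩ := Nat.exists_eq_add_of_le hab
  rw [pow_add, ← Nat.div_div_eq_div_mul, ← Nat.div_div_eq_div_mul]
  exact Nat.div_le_div_right h

theorem cmpN_symm {j z j' z' : ℕ} (h : cmpN j z j' z') : cmpN j' z' j z := by
  unfold cmpN at *; rw [max_comm]; exact h.symm

theorem cmpN_refl (j z : ℕ) : cmpN j z j z := rfl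

theorem cmpN_or_left (j z j' z' : ℕ) :
    cmpN j z j' z' ∨ leftN j z j' z' ∨ leftN j' z' j z := by
  unfold cmpN leftN
  rw [max_comm j' j]
  rcases lt_trichotomy (z / 2 ^ (max j j')) (z' / 2 ^ (max j j')) with h | h | h
  · exact Or.inr (Or.inl h)
  · exact Or.inl h
  · exact Or.inr (Or.inr h)

theorem not_cmpN_of_leftN {j z j' z' : ℕ} (h : leftN j z j' z') : ¬ cmpN j z j' z' := by
  unfold cmpN leftN at *; omega

/-- going up: `U ~ V`, `V ⊆ W` imply `U ~ W`. -/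
theorem cmpN_up {a u b v c w : ℕ} (h : cmpN a u b v) (hbc : b ≤ c) (hvw : cmpN b v c w) :
    cmpN a u c w := by
  unfold cmpN at *
  rw [max_eq_right hbc] at hvw
  have h1 : u / 2 ^ (max a c) = v / 2 ^ (max a c) :=
    div_pow_eq_of_le (max_le_max le_rfl hbc) h
  have h2 : v / 2 ^ (max a c) = w / 2 ^ (max a c) :=
    div_pow_eq_of_le (le_max_right a c) hvw
  rw [h1, h2]

/-- a leaf `p` lies below the node `(j,z)` -/
def below (p j z : ℕ) : Prop := p / 2 ^ j = z / 2 ^ j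

theorem exists_common_leaf {j z j' z' : ℕ} (h : cmpN j z j' z') :
    ∃ p, below p j z ∧ below p j' z' := by
  unfold cmpN at h
  rcases le_total j j' with hj | hj
  · rw [max_eq_right hj] at h
    exact ⟨z, rfl, h⟩
  · rw [max_eq_left hj] at h
    exact ⟨z', h.symm, rfl⟩

theorem lt_of_leftN {j z j' z' p q : ℕ} (h : leftN j z j' z') (hp : below p j z)
    (hq : below q j' z') : p < q := by
  unfold leftN at h
  unfold below at hp hq
  have h1 := div_pow_eq_of_le (le_max_left j j') hp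
  have h2 := div_pow_eq_of_le (le_max_right j j') hq
  rw [← h1, ← h2] at h
  by_contra hc
  rw [not_lt] at hc
  exact absurd (Nat.div_le_div_right (c := 2 ^ (max j j')) hc) (not_le.mpr h)

/-- **No `[[0,1],[1,0]]`, node version.** If `X₁ ~ Y₂`, `X₂ ~ Y₁`, `X₁ ≁ Y₁`, `X₂ ≁ Y₂`, then
`X₁, X₂` are incomparable, `Y₁, Y₂` are incomparable and it is impossible that `X₁` is left of
`X₂` and `Y₁` is left of `Y₂`. -/
theorem noP_nodes {a1 x1 a2 x2 b1 y1 b2 y2 : ℕ}
    (h12 : cmpN a1 x1 b2 y2) (h21 : cmpN a2 x2 b1 y1)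
    (h11 : ¬ cmpN a1 x1 b1 y1) (h22 : ¬ cmpN a2 x2 b2 y2) :
    ¬ cmpN a1 x1 a2 x2 ∧ ¬ cmpN b1 y1 b2 y2 ∧
      ¬ (leftN a1 x1 a2 x2 ∧ leftN b1 y1 b2 y2) := by
  refine ⟨?_, ?_, ?_⟩
  · intro hX
    rcases le_total a1 a2 with h | h
    · exact h22 (cmpN_symm (cmpN_up (cmpN_symm h12) h hX))
    · exact h11 (cmpN_symm (cmpN_up (cmpN_symm h21) h (cmpN_symm hX)))
  · intro hY
    rcases le_total b1 b2 with h | h
    · exact h22 (cmpN_up h21 h hY)
    · exact h11 (cmpN_up h12 h (cmpN_symm hY))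
  · rintro ⟨hX, hY⟩
    obtain ⟨p, hp1, hp2⟩ := exists_common_leaf h12
    obtain ⟨q, hq1, hq2⟩ := exists_common_leaf h21
    have := lt_of_leftN hX hp1 hq1
    have := lt_of_leftN hY hq2 hp2
    omega

theorem tα_lt_tω (j z : ℕ) : tα j z < tω j z := by
  unfold tα tω
  have : 0 < 2 ^ j := by positivity
  nlinarith

theorem tα_le (j z : ℕ) : tα j z ≤ z := Nat.div_mul_le_self z (2 ^ j)

theorem lt_tω (j z : ℕ) : z < tω j z := by
  unfold tω
  have h0 : 0 < 2 ^ j := by positivity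
  have := Nat.div_add_mod z (2 ^ j)
  have h2 := Nat.mod_lt z h0
  nlinarith [Nat.mul_comm (2 ^ j) (z / 2 ^ j)]

/-- the interval of a node is contained in the interval of each of its ancestors -/
theorem tα_anc_le {j m z : ℕ} (h : j ≤ m) : tα m z ≤ tα j z := by
  unfold tα
  obtain ⟨c, rfl⟩ := Nat.exists_eq_add_of_le h
  rw [pow_add, ← Nat.div_div_eq_div_mul, mul_comm (2 ^ j) (2 ^ c), ← mul_assoc]
  exact Nat.mul_le_mul_right _ (Nat.div_mul_le_self _ _)

theorem tω_le_anc {j m z : ℕ} (h : j ≤ m) : tω j z ≤ tω m z := by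
  unfold tω
  obtain ⟨c, rfl⟩ := Nat.exists_eq_add_of_le h
  rw [pow_add, ← Nat.div_div_eq_div_mul, mul_comm (2 ^ j) (2 ^ c), ← mul_assoc]
  apply Nat.mul_le_mul_right
  have h0 : 0 < 2 ^ c := by positivity
  have := Nat.div_add_mod (z / 2 ^ j) (2 ^ c)
  have h2 := Nat.mod_lt (z / 2 ^ j) h0
  nlinarith [Nat.mul_comm (2 ^ c) (z / 2 ^ j / 2 ^ c)]

theorem tα_congr {j z z' : ℕ} (h : z / 2 ^ j = z' / 2 ^ j) : tα j z = tα j z' := by
  unfold tα; rw [h]

theorem tω_congr {j z z' : ℕ} (h : z / 2 ^ j = z' / 2 ^ j) : tω j z = tω j z' := by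
  unfold tω; rw [h]

/-- **(O1)** if `(j,z)` is left of `(j',z')` then its right end is `≤` the left end of the other. -/
theorem tω_le_tα_of_leftN {j z j' z' : ℕ} (h : leftN j z j' z') : tω j z ≤ tα j' z' := by
  unfold leftN at h
  calc tω j z ≤ tω (max j j') z := tω_le_anc (le_max_left _ _)
    _ ≤ tα (max j j') z' := by
        unfold tω tα
        exact Nat.mul_le_mul_right _ h
    _ ≤ tα j' z' := tα_anc_le (le_max_right _ _)

/-- **(O2)** a descendant's interval lies inside the ancestor's. -/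
theorem desc_interval {j z j' z' : ℕ} (hj : j ≤ j') (h : z / 2 ^ j' = z' / 2 ^ j') :
    tα j' z' ≤ tα j z ∧ tω j z ≤ tω j' z' := by
  constructor
  · rw [← tα_congr h]; exact tα_anc_le hj
  · rw [← tω_congr h]; exact tω_le_anc hj

end Crest.Agent.S66
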